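import Vale.Agent.P321.Main

/-!
# P321: explicit form of the lower bound

For every `q ∈ (0,1)`, every `n ≥ 3` and every (possibly randomized) estimator which reconstructs
every `x ∈ {0,1}^n` from `m` independent traces with probability at least `2/3`:
`n^3 ≤ K(q) * m^2` with the explicit constant
`K(q) = 69984 * (2 + 4 (1 - q^2) / ((1 - q) q))^2 * (1 - q^2) / q^8`.
-/

namespace Vale.Agent.Results.P321.ExplicitCube

open Vale.Agent.P321

theorem result :
    ∀ q : ℝ, 0 < q → q < 1 →
      ∀ (n m : ℕ) (est : List (List Bool) → List.Vector Bool n → ℝ), 3 ≤ n →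
        IsEstimator est → (∀ x : List.Vector Bool n, 2 / 3 ≤ successProb q m est x) →
          (n : ℝ) ^ 3
            ≤ 69984 * (2 + 4 * (1 - q ^ 2) / ((1 - q) * q)) ^ 2 * (1 - q ^ 2) / q ^ 8
              * (m : ℝ) ^ 2 := by
  intro q hq0 hq1 n m est hn hest hs
  have h := cube_le q hq0 hq1 n m hn est hest hs
  have hK : K2 q = 69984 * (2 + 4 * (1 - q ^ 2) / ((1 - q) * q)) ^ 2 * (1 - q ^ 2) / q ^ 8 := by
    unfold K2 c0
    have : q ^ 8 = q ^ 6 * q ^ 2 := by ring
    rw [this]
    field_simp
    ring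
  rw [hK] at h
  exact h

end Vale.Agent.Results.P321.ExplicitCube
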