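import Vale.Agent.P321.Main
import Vale.Agent.P321.Finite

/-!
# P321: the sample complexity `T_q(n)` itself

`T_q(n)` is defined, as in the problem, as the least number `m` of traces from which some
(possibly randomized) estimator reconstructs every `x ∈ {0,1}^n` with probability at least `2/3`.
For every fixed `q ∈ (0,1)`:

* this least number exists (`T_q(n)` is finite and attained);
* `T_q(n) ≥ c_q * n^(3/2)` for all `n`, with a constant `c_q > 0`;
* consequently `n^(3/2) / log^7 n = o(T_q(n))`: the order of growth of `T_q(n)` is strictly larger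
  than the previously best lower bound.
-/

namespace Vale.Agent.Results.P321.SampleComplexity

open Vale.Agent.P321 Filter Asymptotics

/-- `m` traces suffice for length `n`: some (possibly randomized) estimator, given `m` independent
traces of `x`, outputs `x` with probability at least `2/3`, for every `x ∈ {0,1}^n`. -/
def Suffices (q : ℝ) (n m : ℕ) : Prop :=
  ∃ est : List (List Bool) → List.Vector Bool n → ℝ,
    IsEstimator est ∧ ∀ x : List.Vector Bool n, 2 / 3 ≤ successProb q m est x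

/-- The worst-case sample complexity `T_q(n)` of trace reconstruction. -/
noncomputable def sampleComplexity (q : ℝ) (n : ℕ) : ℕ :=
  sInf {m : ℕ | Suffices q n m}

theorem result :
    ∀ q : ℝ, 0 < q → q < 1 →
      (∀ n : ℕ, IsLeast {m : ℕ | Suffices q n m} (sampleComplexity q n)) ∧
      (∃ c : ℝ, 0 < c ∧
        ∀ n : ℕ, c * (n : ℝ) ^ ((3 : ℝ) / 2) ≤ (sampleComplexity q n : ℝ)) ∧
      (fun n : ℕ => (n : ℝ) ^ ((3 : ℝ) / 2) / Real.log (n : ℝ) ^ 7)
        =o[atTop] (fun n : ℕ => (sampleComplexity q n : ℝ)) := by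
  intro q hq0 hq1
  have hleast : ∀ n : ℕ, IsLeast {m : ℕ | Suffices q n m} (sampleComplexity q n) := by
    intro n
    have hne : {m : ℕ | Suffices q n m}.Nonempty := by
      obtain ⟨m, est, h1, h2⟩ := exists_reconstruction q hq0.le hq1 n
      exact ⟨m, est, h1, h2⟩
    exact ⟨Nat.sInf_mem hne, fun m hm => Nat.sInf_le hm⟩
  obtain ⟨c, hc, hmain⟩ := main q hq0 hq1
  have hlow : ∀ n : ℕ, c * (n : ℝ) ^ ((3 : ℝ) / 2) ≤ (sampleComplexity q n : ℝ) := by
    intro n
    obtain ⟨est, h1, h2⟩ := (hleast n).1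
    exact hmain n _ est h1 h2
  refine ⟨hleast, ⟨c, hc, hlow⟩, ?_⟩
  have hO : (fun n : ℕ => (n : ℝ) ^ ((3 : ℝ) / 2))
      =O[atTop] (fun n : ℕ => (sampleComplexity q n : ℝ)) := by
    apply IsBigO.of_bound c⁻¹
    filter_upwards with n
    have h0 : 0 ≤ (n : ℝ) ^ ((3 : ℝ) / 2) := by positivity
    rw [Real.norm_of_nonneg h0, Real.norm_of_nonneg (Nat.cast_nonneg _),
      inv_mul_eq_div, le_div_iff₀ hc, mul_comm]
    exact hlow n
  have hlog : Tendsto (fun n : ℕ => (Real.log (n : ℝ) ^ 7)⁻¹) atTop (nhds 0) :=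
    tendsto_inv_atTop_zero.comp ((tendsto_pow_atTop (by norm_num)).comp
      (Real.tendsto_log_atTop.comp tendsto_natCast_atTop_atTop))
  have ho : (fun n : ℕ => (n : ℝ) ^ ((3 : ℝ) / 2) / Real.log (n : ℝ) ^ 7)
      =o[atTop] (fun n : ℕ => (n : ℝ) ^ ((3 : ℝ) / 2)) := by
    have h1 : (fun n : ℕ => (Real.log (n : ℝ) ^ 7)⁻¹) =o[atTop] (fun _ : ℕ => (1 : ℝ)) :=
      (isLittleO_one_iff ℝ).2 hlog
    have h2 := (isBigO_refl (fun n : ℕ => (n : ℝ) ^ ((3 : ℝ) / 2)) atTop).mul_isLittleO h1
    simpa [div_eq_mul_inv] using h2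
  exact ho.trans_isBigO hO

end Vale.Agent.Results.P321.SampleComplexity
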