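import Vale.Agent.P321.Main

/-!
# P321: worst-case trace reconstruction needs at least `c_q * n^(3/2)` traces

For every fixed deletion probability `q ∈ (0,1)` there is a constant `c > 0` such that every
(possibly randomized) estimator which reconstructs every `x ∈ {0,1}^n` from `m` independent traces
with probability at least `2/3` uses `m ≥ c * n^(3/2)` traces.
-/

namespace Vale.Agent.Results.P321.ThreeHalves

open Vale.Agent.P321

theorem result :
    ∀ q : ℝ, 0 < q → q < 1 →
      ∃ c : ℝ, 0 < c ∧ ∀ (n m : ℕ) (est : List (List Bool) → List.Vector Bool n → ℝ),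
        IsEstimator est → (∀ x : List.Vector Bool n, 2 / 3 ≤ successProb q m est x) →
          c * (n : ℝ) ^ ((3 : ℝ) / 2) ≤ (m : ℝ) :=
  fun q hq0 hq1 => main q hq0 hq1

end Vale.Agent.Results.P321.ThreeHalves
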